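import Crest.Agent.R182.ENG.Base

/-! R182/ENG/Path (owner helper94): PATH -/

set_option autoImplicit false
set_option linter.unusedVariables false
set_option linter.unusedSectionVars false
open Set Filter Topology MeasureTheory ProbabilityTheory Matrix Crest.GroupTheory
open scoped Pointwise commutatorElement ENNReal

noncomputable section
namespace Crest.Agent.R182

namespace Model
variable {h k : ℕ} (M : Model h k)

/-- PATH: union bound over `≤ B Λ / ε₁` check points, `mul_mem_Adm`, `Lip.norm_er`.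
`exists_chk Λ δ` with `δ = ε₁ / (3 (|K| + k |Λ| + 1))`; `t = max 1 (2 Λ)`, `ε = min m (min (ε₁ / 3) (ε₁ / N))`; `PF` with `s = 1` (`one_smul`) and
`g = c * (chk i).prod ∈ Adm (2 Λ w) ((1 - m) w)`; `measure_biUnion_finset_le`; `w₀ ≥ 1 / δ, 3 |K| / ε₁` -/
theorem path (K Λ m ε₁ : ℝ) (hm : 0 < m) (hε : 0 < ε₁) : ∃ t ε w₀ : ℝ, 1 ≤ t ∧ 0 < ε ∧ ∀ (f : M.QP K) (p : M.G) (w : ℝ) (L : Mat k)
    (κ : Fin k → ℝ), w₀ ≤ w → Mb L Λ → M.PF f.φ p w L κ t ε → ∀ c ∈ M.Adm (Λ * w) ((1 - m) * w), ∀ l, M.Wrd l → (l.length : ℝ) ≤ Λ * w →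
      (∀ l', l' <+: l → nm (M.chi c + M.chi l'.prod) ≤ (1 - m) * w) →
      M.lw M.E (M.Box w) {x | ∃ l', l' <+: l ∧ ε₁ * w < ‖M.er f.φ L (p * x * c * l'.prod) - κ‖} ≤ ENNReal.ofReal ε₁ := by
  set A := |K| + k * |Λ| + 1 with hA
  have hA0 : 0 < A := by positivity
  set δ := ε₁ / (3 * A) with hδ
  have hδ0 : 0 < δ := by positivity
  obtain ⟨N, hN1, hN⟩ := exists_chk Λ δ hδ0
  have hN0 : (0 : ℝ) < N := by exact_mod_cast hN1
  refine ⟨max 1 (2 * Λ), min m (min (ε₁ / 3) (ε₁ / N)), max (1 / δ) (3 * |K| / ε₁), le_max_left _ _, by positivity,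
    fun f p w L κ hw hL hP c hc l hl hlen hH => ?_⟩
  set ε := min m (min (ε₁ / 3) (ε₁ / N)) with hεd
  have hw1 : 1 ≤ δ * w := by
    have := (div_le_iff₀ hδ0).1 ((le_max_left _ _).trans hw)
    linarith
  have hw0 : 0 < w := (mul_pos_iff_of_pos_left hδ0).1 (by linarith)
  have hw2 : 3 * |K| ≤ w * ε₁ := (div_le_iff₀ hε).1 ((le_max_right _ _).trans hw)
  have e1 : ε ≤ m := min_le_left _ _
  have e2 : ε ≤ ε₁ / 3 := (min_le_right _ _).trans (min_le_left _ _)
  have e3 : ε ≤ ε₁ / N := (min_le_right _ _).trans (min_le_right _ _)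
  obtain ⟨ch, -, h1, -, h2⟩ := hN M.G w l hw1 hlen
  have hsub : {x | ∃ l', l' <+: l ∧ ε₁ * w < ‖M.er f.φ L (p * x * c * l'.prod) - κ‖} ⊆
      ⋃ i ∈ Finset.range N, {x | ε * w < ‖M.er f.φ L (p * x * (c * (ch i).prod)) - κ‖} := by
    rintro x ⟨l', hl', hx⟩
    obtain ⟨i, hi, s, rfl, hs⟩ := h2 l' hl'
    refine mem_biUnion (Finset.mem_coe.2 (Finset.mem_range.2 hi)) ?_
    have hs' : M.Wrd s := fun y hy => hl.of_prefix hl' y (List.mem_append_right _ hy)
    have b1 := f.lφ.norm_er hL s.prod (p * x * (c * (ch i).prod))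
    have b2 : (M.len s.prod : ℝ) ≤ δ * w := le_trans (by exact_mod_cast hs'.len_le) hs
    have b3 : K + k * Λ ≤ A := by
      have := mul_le_mul_of_nonneg_left (le_abs_self Λ) (Nat.cast_nonneg (α := ℝ) k)
      linarith [le_abs_self K]
    have b4 : (K + k * Λ) * M.len s.prod ≤ A * (δ * w) := mul_le_mul b3 b2 (Nat.cast_nonneg _) hA0.le
    have b5 : A * (δ * w) = ε₁ * w / 3 := by rw [hδ]; field_simp
    have b6 := mul_le_mul_of_nonneg_right e2 hw0.le
    have b7 := norm_sub_le_norm_sub_add_norm_sub (M.er f.φ L (p * x * (c * (ch i).prod) * s.prod))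
      (M.er f.φ L (p * x * (c * (ch i).prod))) κ
    rw [List.prod_append, show p * x * c * ((ch i).prod * s.prod) = p * x * (c * (ch i).prod) * s.prod by
      simp only [mul_assoc]] at hx
    show ε * w < _
    linarith [le_abs_self K]
  refine (measure_mono hsub).trans ((measure_biUnion_finset_le _ _).trans ?_)
  have hb : ∀ i ∈ Finset.range N, M.lw M.E (M.Box w) {x | ε * w < ‖M.er f.φ L (p * x * (c * (ch i).prod)) - κ‖} ≤
      ENNReal.ofReal (ε₁ / N) := fun i _ => by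
    have g1 := M.mul_mem_Adm hc (hl.of_prefix (h1 i)) (le_trans (by exact_mod_cast (h1 i).length_le) hlen)
      fun l' h' => hH l' (h'.trans (h1 i))
    have g2 := hP 1 ⟨le_rfl, le_max_left _ _⟩ _ (M.Adm_mono
      (by linarith [mul_le_mul_of_nonneg_right (le_max_right 1 (2 * Λ)) hw0.le])
      (mul_le_mul_of_nonneg_right (sub_le_sub_left e1 1) hw0.le) g1)
    rw [one_smul] at g2
    exact g2.trans (ENNReal.ofReal_le_ofReal e3)
  refine (Finset.sum_le_sum hb).trans (le_of_eq ?_)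
  rw [Finset.sum_const, Finset.card_range, nsmul_eq_mul, ← ENNReal.ofReal_natCast, ← ENNReal.ofReal_mul hN0.le,
    mul_div_cancel₀ _ hN0.ne']

end Model

end Crest.Agent.R182
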