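import Crest.Agent.R182.B.PM

/-! R182/ENG/Base (owner helper94): the region over the box, check points, Markov -/

set_option autoImplicit false
set_option linter.unusedVariables false
set_option linter.unusedSectionVars false
open Set Filter Topology MeasureTheory ProbabilityTheory Matrix Crest.GroupTheory
open scoped Pointwise commutatorElement ENNReal

noncomputable section
namespace Crest.Agent.R182

namespace Model
variable {h k : ℕ} (M : Model h k)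

/-- the region over the box -/
def Reg (t Λ m w : ℝ) : Set M.G := M.exp '' (t • M.Box w) * M.Adm (Λ * w) ((1 - m) * w)

omit M in
/-- there is room to go from height `a` in the direction `-v` for time `T` -/
def Room (a v : Fin k → ℝ) (T H : ℝ) : Prop := ∀ s ∈ Icc (0 : ℝ) T, nm (a - s • v) ≤ H

/-! ### part a -/

/-- `isCompact_Box`, `IsCompact.smul`, `continuous_exp`, `isCompact_Adm`, `IsCompact.mul` -/
theorem isCompact_Reg (t Λ m w : ℝ) : IsCompact (M.Reg t Λ m w) := by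
  exact (((M.isCompact_Box w).smul t).image M.continuous_exp).mul (M.isCompact_Adm _ _)

/-- `Core.In.mono'` with `star_RV`, `Adm_mono` -/
theorem Reg_mono {t t' Λ Λ' m m' w : ℝ} (hw : 0 ≤ w) (ht : |t| ≤ t') (hΛ : Λ ≤ Λ') (hm : m' ≤ m) :
    M.Reg t Λ m w ⊆ M.Reg t' Λ' m' w := by
  exact mul_subset_mul (image_mono fun X hX => Core.In.mono' (M.star_RV w) hX ht)
    (M.Adm_mono (mul_le_mul_of_nonneg_right hΛ hw) (mul_le_mul_of_nonneg_right (by linarith) hw))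

/-- `mul_mem_Adm'`, `Adm_mono` -/
theorem mul_mem_Reg {t Λ Λ' m m' w r : ℝ} {y s : M.G} (hy : y ∈ M.Reg t Λ m w) (hs : s ∈ M.ballR r) (h1 : Λ * w + r ≤ Λ' * w)
    (h2 : (1 - m) * w + r ≤ (1 - m') * w) : y * s ∈ M.Reg t Λ' m' w := by
  obtain ⟨x, hx, g, hg, rfl⟩ := hy
  exact ⟨x, hx, g * s, M.Adm_mono h1 h2 (M.mul_mem_Adm' hg hs), (mul_assoc _ _ _).symm⟩

/-- `stay`: `g = exp X * c`, `X ∈ Box w`, `c ∈ AdmC ⊆ ballCR (|Λ| w)`; `exp_Qi_mul (max 1 |t|)` gives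
`Reg ⊆ exp '' (D • Box w) * ballCR (|Λ| w)`; `vol_region_le |Λ| D 1` with `c = 1` -/
theorem vol_Reg_le (t Λ m : ℝ) (hm : 0 < m) : ∃ D w₀ : ℝ, 1 ≤ D ∧ ∀ w ≥ w₀, volume (M.Reg t Λ m w) ≤ ENNReal.ofReal D * M.vol0 w := by
  obtain ⟨w₁, h1⟩ := M.stay Λ m hm
  obtain ⟨D₁, -, -, h2⟩ := M.exp_Qi_mul (max 1 |t|)
  obtain ⟨D, w₂, hD, h3⟩ := M.vol_region_le |Λ| D₁ 1 one_pos
  refine ⟨D, max 0 (max w₁ w₂), hD, fun w hw => ?_⟩
  have hw0 : 0 ≤ w := (le_max_left _ _).trans hw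
  have hw1 : w₁ ≤ w := ((le_max_left _ _).trans (le_max_right _ _)).trans hw
  have hw2 : w₂ ≤ w := ((le_max_right _ _).trans (le_max_right _ _)).trans hw
  have h4 := h3 w hw2 1 (M.one_mem_ballCR (by positivity))
  rw [one_mul, Set.singleton_one, mul_one] at h4
  refine (measure_mono ?_).trans h4
  rintro _ ⟨_, ⟨Y, hY, rfl⟩, g, hg, rfl⟩
  obtain ⟨X, hX, c, hc, rfl⟩ := h1 w hw1 _ le_rfl _ le_rfl g hg
  refine ⟨_, h2 _ (M.star_RV w) (mul_mem_mul ⟨Y, Core.In.mono' (M.star_RV w) hY (le_max_right _ _), rfl⟩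
    ⟨X, M.smul_Qi_mono (M.star_RV w) zero_le_one (le_max_left _ _) (by rwa [one_smul]), rfl⟩), c,
    M.ballCR_mono (mul_le_mul_of_nonneg_right (le_abs_self Λ) hw0) (M.AdmC_subset_ballCR _ _ hc), mul_assoc _ _ _⟩

/-! ### part b -/

omit M in
/-- check points `c i = l.take (i * ⌊δ w⌋₊)`, `N = ⌈2 |Λ| / δ⌉₊ + 1` (`x / 2 ≤ ⌊x⌋₊` for `1 ≤ x`; a prefix is `l.take n`, `i = n / ⌊δ w⌋₊`) -/
theorem _root_.Crest.Agent.R182.exists_chk (Λ δ : ℝ) (hδ : 0 < δ) : ∃ N : ℕ, 1 ≤ N ∧ ∀ (G : Type) (w : ℝ) (l : List G), 1 ≤ δ * w →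
    (l.length : ℝ) ≤ Λ * w → ∃ c : ℕ → List G, c 0 = [] ∧ (∀ i, c i <+: l) ∧
      (∀ i, ∃ s, c (i + 1) = c i ++ s ∧ (s.length : ℝ) ≤ δ * w) ∧
      ∀ l', l' <+: l → ∃ i < N, ∃ s, l' = c i ++ s ∧ (s.length : ℝ) ≤ δ * w := by
  refine ⟨⌈2 * |Λ| / δ⌉₊ + 1, by omega, fun G w l hw hl => ?_⟩
  set n₀ := ⌊δ * w⌋₊ with hn₀
  have h1 : 1 ≤ n₀ := Nat.le_floor (by simpa using hw)
  have h2 : (n₀ : ℝ) ≤ δ * w := Nat.floor_le (by linarith)
  have h3 : δ * w < n₀ + 1 := Nat.lt_floor_add_one _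
  have h1' : (1 : ℝ) ≤ n₀ := by exact_mod_cast h1
  have hw0 : 0 < w := by
    by_contra hc
    push Not at hc
    nlinarith
  refine ⟨fun i => l.take (i * n₀), by simp, fun i => List.take_prefix _ _, fun i => ?_, fun l' hl' => ?_⟩
  · refine ⟨(l.drop (i * n₀)).take n₀, by simp only [add_mul, one_mul, List.take_add], le_trans ?_ h2⟩
    exact_mod_cast List.length_take_le _ _
  · have e := List.prefix_iff_eq_take.1 hl'
    have hn : l'.length ≤ l.length := hl'.length_le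
    set n := l'.length with hn'
    have e2 : n = n / n₀ * n₀ + n % n₀ := (Nat.div_add_mod' n n₀).symm
    refine ⟨n / n₀, ?_, (l.drop (n / n₀ * n₀)).take (n % n₀), ?_, le_trans ?_ h2⟩
    · have h4 : ((n / n₀ : ℕ) : ℝ) * n₀ ≤ |Λ| * w := by
        have h5 : n / n₀ * n₀ ≤ l.length := (Nat.div_mul_le_self n n₀).trans hn
        have h6 : ((n / n₀ * n₀ : ℕ) : ℝ) ≤ l.length := by exact_mod_cast h5
        push_cast at h6
        exact h6.trans (hl.trans (mul_le_mul_of_nonneg_right (le_abs_self Λ) hw0.le))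
      have h7 : ((n / n₀ : ℕ) : ℝ) ≤ 2 * |Λ| / δ := by
        rw [le_div_iff₀ hδ]
        have h8 : (0 : ℝ) ≤ ((n / n₀ : ℕ) : ℝ) := Nat.cast_nonneg _
        have h9 : ((n / n₀ : ℕ) : ℝ) * (δ * w) ≤ ((n / n₀ : ℕ) : ℝ) * (2 * n₀) :=
          mul_le_mul_of_nonneg_left (by linarith) h8
        refine le_of_mul_le_mul_right ?_ hw0
        linarith
      have h10 : n / n₀ ≤ ⌈2 * |Λ| / δ⌉₊ := by exact_mod_cast h7.trans (Nat.le_ceil _)
      omega
    · simp only [← List.take_add, ← e2]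
      exact e
    · exact_mod_cast (List.length_take_le _ _).trans (Nat.mod_lt n h1).le

/-- `markov_fubini` for an s-finite `ν` (same proof as in B/Basic) -/
theorem markov_fubini' {ν la : Measure M.G} [SFinite ν] [IsProbabilityMeasure la] {A : Set (M.G × M.G)}
    (hA : MeasurableSet A) {a b : ℝ≥0∞} (hb : b ≠ 0) (ha : ∀ᵐ x ∂la, ν {p | (p, x) ∈ A} ≤ a) :
    ν {p | b < la {x | (p, x) ∈ A}} ≤ a / b := by
  by_cases hb' : b = ⊤
  · simp [hb']
  have hm : Measurable fun p => la (Prod.mk p ⁻¹' A) := measurable_measure_prodMk_left hA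
  refine (measure_mono (t := {p | b ≤ la (Prod.mk p ⁻¹' A)}) fun p hp => (show b < la (Prod.mk p ⁻¹' A) from hp).le).trans
    ((meas_ge_le_lintegral_div hm.aemeasurable hb hb').trans ?_)
  refine ENNReal.div_le_div_right ?_ b
  rw [← Measure.prod_apply hA, Measure.prod_apply_symm hA]
  exact (lintegral_mono_ae ha).trans_eq (by rw [lintegral_const, measure_univ, mul_one])

/-- the form used below: `A = {z | z.1 ∈ Ω ∧ Q z.1 z.2}`; `lw_compl`, `isProbabilityMeasure_lw_Gv` with `t = 1` -/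
theorem markov_Gv {ν : Measure M.G} [SFinite ν] {U : Submodule ℝ (V h)} (hU : U ≤ M.E) (R : ℝ) {Ω : Set M.G} (hΩ : MeasurableSet Ω)
    {Q : M.G → M.G → Prop} (hQ : MeasurableSet {z : M.G × M.G | Q z.1 z.2}) {a : ℝ≥0∞}
    (ha : ∀ X ∈ U, X ∈ M.Gv R → ν {p | p ∈ Ω ∧ Q p (M.exp X)} ≤ a) :
    ν {p | p ∈ Ω ∧ ¬M.lw U (M.Gv R) {x | Q p x} ≤ 6⁻¹} ≤ 6 * a := by
  have hp := M.isProbabilityMeasure_lw_Gv hU one_pos R
  rw [one_smul] at hp
  have h0 : ∀ᵐ x ∂M.lw U (M.Gv R), x ∈ M.exp '' (U ∩ M.Gv R) := M.lw_compl U (M.isCompact_Gv R)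
  have h1 := M.markov_fubini' (ν := ν) (la := M.lw U (M.Gv R)) (A := {z : M.G × M.G | z.1 ∈ Ω ∧ Q z.1 z.2})
    ((measurable_fst hΩ).inter hQ) (a := a) (b := 6⁻¹) (by norm_num) (h0.mono (by
      rintro _ ⟨X, ⟨hX, hX'⟩, rfl⟩
      exact ha X hX hX'))
  rw [div_eq_mul_inv, inv_inv, mul_comm] at h1
  refine le_trans (measure_mono ?_) h1
  rintro p ⟨hp1, hp2⟩
  simpa only [mem_ofPred_eq, hp1, true_and] using not_le.1 hp2

end Model

end Crest.Agent.R182
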