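import Crest.Agent.R182.ENG.Path

/-! R182/ENG/Eng1 (owner helper94): ENG1 -/

set_option autoImplicit false
set_option linter.unusedVariables false
set_option linter.unusedSectionVars false
open Set Filter Topology MeasureTheory ProbabilityTheory Matrix Crest.GroupTheory
open scoped Pointwise commutatorElement ENNReal

noncomputable section
namespace Crest.Agent.R182

namespace Model
variable {h k : ℕ} (M : Model h k)

/-- part a.  `g⁻¹ * exp X * g = exp (Ad g⁻¹ X)` (`conj`), `(gi_mI _).Ad`, norm `≤ exp (B R)` (`exists_norm_Ad_le`, `norm_Qi`, `len_inv`); `exists_mword` at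
`B R`; `a = chi s + chi s'` (`chi_mul`, `chi_exp`, `chi_pow`, `chi_inv`, `nm_chi_le`) -/
theorem exists_mword' {d : M.G} (hd : d ∈ M.C) : ∃ Λ₁ : ℝ, 1 ≤ Λ₁ ∧ ∀ R : ℝ, 1 ≤ R → ∀ g ∈ M.ballR R, ∀ X ∈ M.mI (M.chi d), X ∈ M.Gv R →
    ∃ l, M.Wrd l ∧ (l.length : ℝ) ≤ Λ₁ * R ∧ l.prod = g⁻¹ * M.exp X * g ∧
      ∀ l', l' <+: l → ∃ (a : Fin k → ℝ) (j : ℝ), nm a ≤ Λ₁ ∧ j ∈ Icc 0 (Λ₁ * R) ∧ M.chi l'.prod = a - j • M.chi d := by
  obtain ⟨Λ, hΛ, H⟩ := M.exists_mword hd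
  obtain ⟨B, hB, hAd⟩ := M.exists_norm_Ad_le
  obtain ⟨B', hB', hQ⟩ := M.norm_Qi
  have h1 : Λ ≤ Λ * (B + B') := le_mul_of_one_le_right (by linarith) (by linarith)
  refine ⟨2 * (Λ * (B + B')), by linarith, fun R hR g hg X hX hXR => ?_⟩
  have hn : ‖M.Ad g⁻¹ X‖ ≤ Real.exp ((B + B') * R) := by
    refine (hAd _ X).trans ((mul_le_mul_of_nonneg_left (hQ _ R hR (fun _ hY => hY.2) X hXR) (Real.exp_pos _).le).trans ?_)
    rw [← Real.exp_add, M.len_inv, add_mul]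
    exact Real.exp_le_exp.2 (add_le_add (mul_le_mul_of_nonneg_left hg hB) le_rfl)
  have h2 : 0 ≤ Λ * (B + B') * R := by positivity
  obtain ⟨l, a1, a2, a3, a4⟩ := H ((B + B') * R) (by nlinarith) _ ((M.gi_mI _).Ad g⁻¹ X hX) hn
  refine ⟨l, a1, by linarith, by rw [a3, ← M.conj, inv_inv], fun l' h' => ?_⟩
  obtain ⟨Y, -, -, s, hs, s', hs', j, hj, e⟩ := a4 l' h'
  refine ⟨M.chi s + M.chi s', j, (nm_add_le _ _).trans ?_, ⟨Nat.cast_nonneg _, by linarith⟩, ?_⟩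
  · linarith [(M.nm_chi_le s).trans hs, (M.nm_chi_le s').trans hs']
  · rw [e, M.chi_mul, M.chi_mul, M.chi_mul, M.chi_exp, M.chi_pow, M.chi_inv, smul_neg]
    abel

/-- part a.  For `0 < wt j ⬝ᵥ chi d'` we have `0 < wt j ⬝ᵥ L *ᵥ chi d`, so `wt j ⬝ᵥ cc φ l'.prod q ≤ A (ε₂ w + |Λ| |Λ₁|)` with `A = ∑ j, nm (wt j) * k * k + 1`
(`abs_dot_le`, `Mb.norm_mulVec`, `norm_le_nm`); `exists_pmq` with `r = A (ε₂ w + |Λ| |Λ₁|) + 1`, `G1.mono`; `log (1 + Λ₁ w) = o(w)`.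
(If `K < 0` there is no `f`: `f.one_le`.) -/
theorem g1_of_path (K Λ Λ₁ ε₁ : ℝ) (hε : 0 < ε₁) : ∃ ε₂ w₀ : ℝ, 0 < ε₂ ∧ ∀ (f : M.QP K) (L : Mat k) (d d' q : M.G) (w : ℝ) (l : List M.G),
    w₀ ≤ w → Mb L Λ → M.RegV (M.chi d') → M.Sim (L *ᵥ M.chi d) (M.chi d') → M.Wrd l → (l.length : ℝ) ≤ Λ₁ * w → M.chi l.prod = 0 →
    (∀ l', l' <+: l → ∃ (a : Fin k → ℝ) (j : ℝ), nm a ≤ Λ₁ ∧ 0 ≤ j ∧ M.chi l'.prod = a - j • M.chi d) →
    (∀ l', l' <+: l → ‖M.cc f.φ l'.prod q - L *ᵥ M.chi l'.prod‖ ≤ ε₂ * w) → M.G1 f.φ (M.mI (M.chi d')) (ε₁ * w) q l.prod := by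
  by_cases hK : 0 ≤ K
  swap
  · exact ⟨1, 0, one_pos, fun f => absurd (zero_le_one.trans f.one_le) hK⟩
  obtain ⟨B, hB, H⟩ := M.exists_pmq K hK
  obtain ⟨A, hA0, hA⟩ : ∃ A : ℝ, 0 ≤ A ∧ ∀ j (a : Fin k → ℝ), M.wt j ⬝ᵥ a ≤ A * ‖a‖ := by
    refine ⟨(∑ j, nm (M.wt j)) * k, mul_nonneg (Finset.sum_nonneg fun j _ => nm_nonneg _) k.cast_nonneg, fun j a => ?_⟩
    refine (le_abs_self _).trans ((abs_dot_le _ _).trans ?_)
    rw [mul_assoc]
    exact mul_le_mul_of_nonneg_right (Finset.single_le_sum (f := fun j => nm (M.wt j)) (fun j _ => nm_nonneg _)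
      (Finset.mem_univ j)) (by positivity)
  have hB0 : 0 < B := by linarith
  set δ := ε₁ / (3 * B) with hδ
  have hδ0 : 0 < δ := by positivity
  set c := k * |Λ| * |Λ₁| with hc
  have hc0 : 0 ≤ c := by positivity
  refine ⟨δ / (A + 1), max 1 ((A * c + 1 + Real.log (1 + |Λ₁|) - Real.log δ) / δ), by positivity,
    fun f L d d' q w l hw hL hd' hS hl hlen h0 hpre herr => ?_⟩
  have hw1 : 1 ≤ w := (le_max_left _ _).trans hw
  have hw2 := (div_le_iff₀ hδ0).1 ((le_max_right _ _).trans hw)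
  have e0 : (A + 1) * (δ / (A + 1) * w) = δ * w := by field_simp
  have e1 : 0 ≤ δ / (A + 1) * w := by positivity
  have e2 : 0 ≤ A * c := by positivity
  have e3 : 0 ≤ A * (δ / (A + 1) * w) := by positivity
  refine (H f.φ (M.chi d') q l (δ * w + A * c + 1) f.lφ hd' hl (by nlinarith) (fun l' hl' j hj => ?_) ?_).mono ?_
  · obtain ⟨a, t, ha, ht, e⟩ := hpre l' hl'
    have h1 := herr l' hl'
    have h2 := ((hS j).1).2 hj
    have h3 : ‖L *ᵥ a‖ ≤ c := by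
      refine (hL.norm_mulVec a).trans ?_
      rw [hc]
      exact mul_le_mul (by gcongr; exact le_abs_self Λ) ((norm_le_nm a).trans (ha.trans (le_abs_self _))) (norm_nonneg _)
        (by positivity)
    have h4 : M.cc f.φ l'.prod q = (M.cc f.φ l'.prod q - L *ᵥ M.chi l'.prod) + (L *ᵥ a - t • L *ᵥ M.chi d) := by
      rw [e, mulVec_sub, mulVec_smul, sub_add_cancel]
    rw [h4, dotProduct_add, dotProduct_sub (M.wt j) (L *ᵥ a), dotProduct_smul, smul_eq_mul]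
    have h5 := (hA j _).trans (mul_le_mul_of_nonneg_left h1 hA0)
    have h6 := (hA j _).trans (mul_le_mul_of_nonneg_left h3 hA0)
    have h7 := mul_nonneg ht h2.le
    linarith
  · have h1 := herr l List.prefix_rfl
    rw [h0, mulVec_zero, sub_zero] at h1
    linarith
  · have h1 : (1 : ℝ) + l.length ≤ (1 + |Λ₁|) * w := by
      have := mul_le_mul_of_nonneg_right (le_abs_self Λ₁) (zero_le_one.trans hw1)
      linarith
    have h2 := Real.log_le_log (by positivity) h1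
    rw [Real.log_mul (by positivity) (by positivity)] at h2
    have h3 := Real.log_le_sub_one_of_pos (mul_pos hδ0 (zero_lt_one.trans_le hw1))
    rw [Real.log_mul hδ0.ne' (by positivity)] at h3
    calc B * (δ * w + A * c + 1 + Real.log (1 + l.length)) ≤ B * (3 * (δ * w)) := by
          gcongr
          linarith
      _ = ε₁ * w := by rw [hδ]; field_simp

/-- ENG1.  For fixed `x' ∈ exp (mI ∩ Gv R)` the element `g⁻¹ x' g ∈ exp (mI)` has logarithm of norm `≤ exp (B R)`; take its word (`exists_mword`); `path`;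
along a good path the positive heights for `chi d'` of the image are `≤ B ε₂ w` (`Dir.fwd`); `exists_pmq`; `markov_fubini`.
part b: `exists_mword'`, `g1_of_path`, `path K (max Λ Λ₁) (m / 2) ε₃` with `ε₃ = min (ε₂ / 2) (ε₁ / 6)` (`er_sub` with the prefixes `l'` and `[]`),
`markov_Gv` with `Ω = univ`, `measurableSet_G1`. -/
theorem eng1 {d : M.G} (hd : d ∈ M.C) : ∃ Λ₁ : ℝ, 1 ≤ Λ₁ ∧ ∀ K Λ m ε₁ : ℝ, 0 < m → 0 < ε₁ → ∃ t ε w₀ : ℝ, 1 ≤ t ∧ 0 < ε ∧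
    ∀ (f : M.QP K) (p : M.G) (w R : ℝ) (L : Mat k) (κ : Fin k → ℝ) (d' : M.G), w₀ ≤ w → 1 ≤ R → R ≤ w → Mb L Λ → M.Dir L d d' →
      M.PF f.φ p w L κ t ε → ∀ c ∈ M.Adm (Λ * w) ((1 - m) * w), Room (M.chi c) (M.chi d) (Λ₁ * R) ((1 - m) * w) → ∀ g ∈ M.ballR R,
        M.lw M.E (M.Box w) {x | ¬M.P2 f.φ (M.mI (M.chi d)) (M.mI (M.chi d')) R (ε₁ * w) (p * x * c) g} ≤ ENNReal.ofReal ε₁ := by
  obtain ⟨Λ₁, hΛ₁, hw⟩ := M.exists_mword' hd
  refine ⟨Λ₁, hΛ₁, fun K Λ m ε₁ hm hε₁ => ?_⟩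
  obtain ⟨ε₂, w₁, hε₂, hg⟩ := M.g1_of_path K Λ Λ₁ ε₁ hε₁
  obtain ⟨t, ε, w₂, ht, hε, hp⟩ := M.path K (max Λ Λ₁) (m / 2) (min (ε₂ / 2) (ε₁ / 6)) (by positivity) (by positivity)
  refine ⟨t, ε, max (max w₁ w₂) (2 * Λ₁ / m), ht, hε, fun f p w R L κ d' hw₀ hR hRw hL hD hPF c hc hroom g hgR => ?_⟩
  simp only [max_le_iff] at hw₀
  obtain ⟨⟨hw1, hw2⟩, hw3⟩ := hw₀
  rw [div_le_iff₀ hm] at hw3
  have hw0 : 0 ≤ w := by linarith
  have hprob : IsProbabilityMeasure (M.lw M.E (M.Box w)) := by simpa using M.isProbabilityMeasure_lw_Box one_pos w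
  have key := M.markov_Gv (ν := M.lw M.E (M.Box w)) (M.gi_mI (M.chi d)).le R MeasurableSet.univ
    (Q := fun x y => ¬M.G1 f.φ (M.mI (M.chi d')) (ε₁ * w) (p * x * c) (g⁻¹ * y * g))
    (((((measurable_fst.const_mul p).mul_const c).prodMk ((measurable_snd.const_mul g⁻¹).mul_const g))
      (M.measurableSet_G1 f.mφ (M.gi_mI (M.chi d')).idl.isSub (ε₁ * w))).compl)
    (a := ENNReal.ofReal (min (ε₂ / 2) (ε₁ / 6))) fun X hX hXR => ?_
  · refine le_trans (le_of_eq ?_) (key.trans ?_)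
    · simp only [P2, mem_univ, true_and]
    · rw [show (6 : ℝ≥0∞) = ENNReal.ofReal 6 by simp, ← ENNReal.ofReal_mul (by norm_num)]
      exact ENNReal.ofReal_le_ofReal (by linarith [min_le_right (ε₂ / 2) (ε₁ / 6)])
  obtain ⟨l, hl, hlen, hprod, hpre⟩ := hw R hR g hgR X hX hXR
  have hlen' : (l.length : ℝ) ≤ Λ₁ * w := hlen.trans (by gcongr)
  refine le_trans (measure_mono fun x hx => ?_) (hp f p w L κ hw2 (fun i j => (hL i j).trans (le_max_left _ _)) hPF c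
    (M.Adm_mono (by gcongr; exact le_max_left _ _) (by nlinarith) hc) l hl (hlen'.trans (by gcongr; exact le_max_right _ _))
    fun l' hl' => ?_)
  · by_contra hn
    simp only [mem_ofPred_eq, not_exists, not_and, not_lt] at hn
    refine hx.2 (hprod ▸ hg f L d d' _ w l hw1 hL hD.reg' hD.fwd hl hlen' ?_ (fun l' hl' => ?_) fun l' hl' => ?_)
    · rw [hprod, M.chi_mul, M.chi_mul, M.chi_inv, M.chi_exp]; abel
    · obtain ⟨a, j, ha, hj, e⟩ := hpre l' hl'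
      exact ⟨a, j, ha, hj.1, e⟩
    · have h1 := hn l' hl'
      have h2 := hn [] List.nil_prefix
      rw [List.prod_nil, mul_one] at h2
      rw [← M.er_sub, ← sub_sub_sub_cancel_right _ _ κ]
      refine (norm_sub_le _ _).trans ?_
      nlinarith [min_le_left (ε₂ / 2) (ε₁ / 6)]
  · obtain ⟨a, j, ha, hj, e⟩ := hpre l' hl'
    rw [e, show M.chi c + (a - j • M.chi d) = M.chi c - j • M.chi d + a by abel]
    refine (nm_add_le _ _).trans ?_
    nlinarith [hroom j hj]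

end Model

end Crest.Agent.R182
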