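import Crest.Agent.R182.ENG.Pull
import Crest.Agent.R182.ENG.Eng1

/-! R182/ENG/Eng3 (owner helper94): ENG3 -/

set_option autoImplicit false
set_option linter.unusedVariables false
set_option linter.unusedSectionVars false
open Set Filter Topology MeasureTheory ProbabilityTheory Matrix Crest.GroupTheory
open scoped Pointwise commutatorElement ENNReal

noncomputable section
namespace Crest.Agent.R182

namespace Model
variable {h k : ℕ} (M : Model h k)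

/-- the points of the region whose height is close to that of `c` -/
def RegC (Λ m η w : ℝ) (c : M.G) : Set M.G := {y | y ∈ M.Reg 1 Λ m w ∧ nm (M.chi y - M.chi c) ≤ η * w}

theorem measurableSet_RegC (Λ m η w : ℝ) (c : M.G) : MeasurableSet (M.RegC Λ m η w c) := by
  refine (M.isCompact_Reg 1 Λ m w).measurableSet.inter ?_
  have h1 : Continuous fun y : M.G => nm (M.chi y - M.chi c) := by
    have h2 : Continuous fun y : M.G => M.chi y - M.chi c := M.continuous_chi.sub continuous_const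
    exact (h2.dotProduct h2).sqrt
  exact (isClosed_le h1 continuous_const).measurableSet

/-- part a (target side).  For fixed `X ∈ mI (chi d') ∩ Gv r` take its word `l` (`exists_mword'`, `g = 1`); for `y₀ ∈ RegC` the prefixes satisfy
`nm (chi y₀ + L⁻¹ chi l') ≤ nm (chi c - j • L⁻¹ chi d') + m / 4 w + k k |Λ| Λ₁ ≤ (1 - m / 2) w`; `pull K 1 (max Λ (max Λ₂ Λ₁)) (m / 2) ε₃`,
`g1_of_path` for `f.symm`, `L⁻¹`, `d'`, `d` (`Dir.bwd`, `Dir.reg`); `markov_Gv` with `ν = volume`, `Ω = {ζ | p⁻¹ * ψ ζ ∈ RegC …}`; `ε₃ = min ε₂' (ε₂ / 6)`. -/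
theorem eng3_a {d' : M.G} (hd' : d' ∈ M.C) : ∃ Λ₁ : ℝ, 1 ≤ Λ₁ ∧ ∀ K Λ Λ₂ m ε₁ ε₂ : ℝ, 0 < m → 0 < ε₁ → 0 < ε₂ →
    ∃ t ε w₀ : ℝ, 1 ≤ t ∧ 0 < ε ∧ ∀ (f : M.QP K) (p : M.G) (w r : ℝ) (L : Mat k) (κ : Fin k → ℝ) (d c : M.G), w₀ ≤ w → 1 ≤ r → r ≤ w →
      L.det ≠ 0 → Mb L Λ → Mb L⁻¹ Λ → M.Dir L d d' → M.PF f.φ p w L κ t ε → Room (M.chi c) (L⁻¹ *ᵥ M.chi d') (Λ₁ * r) ((1 - m) * w) →
      volume {ζ | p⁻¹ * f.ψ ζ ∈ M.RegC Λ₂ (m / 2) (m / 4) w c ∧ ¬M.P2 f.ψ (M.mI (M.chi d')) (M.mI (M.chi d)) r (ε₁ * w) ζ 1} ≤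
        ENNReal.ofReal ε₂ * M.vol0 w := by
  obtain ⟨Λ₁, hΛ₁, hmw⟩ := M.exists_mword' hd'
  refine ⟨Λ₁, hΛ₁, fun K Λ Λ₂ m ε₁ ε₂ hm h1 h2 => ?_⟩
  obtain ⟨ε', w₁, hε', hg⟩ := M.g1_of_path K Λ Λ₁ ε₁ h1
  obtain ⟨t, ε, w₂, ht, hε, hp⟩ := M.pull K 1 (max Λ (max Λ₂ Λ₁)) (m / 2) (min ε' (ε₂ / 6)) (by positivity) (by positivity)
  refine ⟨t, ε, max (max w₁ w₂) (4 * (k * (k * |Λ| * Λ₁)) / m), ht, hε,
    fun f p w r L κ d c hw hr hrw hL hb hb' hD hP hR => ?_⟩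
  have hw1 : w₁ ≤ w := ((le_max_left _ _).trans (le_max_left _ _)).trans hw
  have hw2 : w₂ ≤ w := ((le_max_right _ _).trans (le_max_left _ _)).trans hw
  have hw3 : 4 * (k * (k * |Λ| * Λ₁)) ≤ w * m := (div_le_iff₀ hm).1 ((le_max_right _ _).trans hw)
  have hw0 : 0 ≤ w := by linarith
  have hQ : MeasurableSet {z : M.G × M.G | ¬M.G1 f.ψ (M.mI (M.chi d)) (ε₁ * w) z.1 (1⁻¹ * z.2 * 1)} := by
    simp only [inv_one, one_mul, mul_one]
    exact (M.measurableSet_G1 f.mψ (Core.IsIdl.isSub _ (M.gi_mI _).idl) _).compl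
  refine (M.markov_Gv (ν := volume) (M.gi_mI (M.chi d')).le r
    (Ω := {ζ | p⁻¹ * f.ψ ζ ∈ M.RegC Λ₂ (m / 2) (m / 4) w c})
    ((M.measurableSet_RegC ..).preimage (f.mψ.const_mul _))
    (Q := fun q x => ¬M.G1 f.ψ (M.mI (M.chi d)) (ε₁ * w) q (1⁻¹ * x * 1)) hQ
    (a := ENNReal.ofReal (min ε' (ε₂ / 6)) * M.vol0 w) fun X hX hX' => ?_).trans ?_
  · obtain ⟨l, hl, hn, e, hpre⟩ := hmw r hr 1 (M.one_mem_ballR (by linarith)) X hX hX'
    have hn1 : (l.length : ℝ) ≤ Λ₁ * w := hn.trans (mul_le_mul_of_nonneg_left hrw (by linarith))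
    refine (measure_mono fun q hq => ?_).trans (hp f p w L κ hw2 hL (fun i j => (hb i j).trans (le_max_left _ _))
      (fun i j => (hb' i j).trans (le_max_left _ _)) hP l hl
      (hn1.trans (mul_le_mul_of_nonneg_right ((le_max_right _ _).trans (le_max_right _ _)) hw0)))
    obtain ⟨⟨hq1, hq2⟩, hq3⟩ := hq
    refine ⟨M.Reg_mono hw0 (by simp) ((le_max_left _ _).trans (le_max_right _ _)) le_rfl hq1, fun l' hl' => ?_, ?_⟩
    · obtain ⟨a, j, ha, hj, e'⟩ := hpre l' hl'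
      have e2 : M.chi (p⁻¹ * f.ψ q) + L⁻¹ *ᵥ M.chi l'.prod =
          (M.chi c - j • L⁻¹ *ᵥ M.chi d') + (M.chi (p⁻¹ * f.ψ q) - M.chi c) + L⁻¹ *ᵥ a := by
        rw [e', Matrix.mulVec_sub, Matrix.mulVec_smul]
        abel
      have h3 : nm (L⁻¹ *ᵥ a) ≤ k * (k * |Λ| * Λ₁) := by
        refine (nm_le_norm _).trans (mul_le_mul_of_nonneg_left ?_ k.cast_nonneg)
        refine (Mb.norm_mulVec (Λ := |Λ|) (fun i j => (hb' i j).trans (le_abs_self _)) a).trans ?_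
        exact mul_le_mul_of_nonneg_left ((norm_le_nm a).trans ha) (by positivity)
      have h4 := hR j hj
      have h5 := nm_add_le (M.chi c - j • L⁻¹ *ᵥ M.chi d') (M.chi (p⁻¹ * f.ψ q) - M.chi c)
      rw [e2]
      refine (nm_add_le _ _).trans ?_
      linarith
    · by_contra hcon
      refine hq3 ?_
      rw [← e]
      refine hg f.symm L⁻¹ d' d q w l hw1 hb' hD.reg hD.bwd hl hn1 (by simp [e, M.chi_exp]) (fun l' hl' => ?_)
        fun l' hl' => ?_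
      · obtain ⟨a, j, ha, hj, e'⟩ := hpre l' hl'
        exact ⟨a, j, ha, hj.1, e'⟩
      · exact (not_lt.1 fun h6 => hcon ⟨l', hl', h6⟩).trans (mul_le_mul_of_nonneg_right (min_le_left _ _) hw0)
  · rw [← mul_assoc]
    refine mul_le_mul_left ?_ _
    rw [← ENNReal.ofReal_ofNat, ← ENNReal.ofReal_mul (by norm_num)]
    exact ENNReal.ofReal_le_ofReal (by have := min_le_right ε' (ε₂ / 6); linarith)

/-- part b (back to the source).  `T` = the set on the right (measurable: `measurableSet_RegC`, `measurableSet_P2`).  For `y` on the left and `s ∈ ballR 1`: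
`p⁻¹ * ψ (φ (p y) s) = y * s'` with `len s' ≤ 3 K` (`f.left`, `f.lψ`), so it lies in the bigger `RegC` (`mul_mem_Reg`, `nm_chi_le`); hence
`2⁻¹ < vol[|ballR 1] {s | φ (p y) * s ∈ T}` (`cond_apply`); Markov (`meas_ge_le_lintegral_div`, `measurable_measure_prodMk_left`), `vol_fibre_le`,
left invariance (`measure_preimage_mul`). -/
theorem eng3_b (K m : ℝ) (hm : 0 < m) : ∃ B w₀ : ℝ, 1 ≤ B ∧ ∀ (f : M.QP K) (p c : M.G) (w Λ₂ r r₁ : ℝ) (U U' : Submodule ℝ (V h)),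
    w₀ ≤ w → M.IsSub U → volume {y | y ∈ M.RegC Λ₂ (3 * m / 4) (m / 8) w c ∧ ¬M.H3 f.φ f.ψ U U' r r₁ (p * y)} ≤
      ENNReal.ofReal B * volume {ζ | p⁻¹ * f.ψ ζ ∈ M.RegC (Λ₂ + 1) (m / 2) (m / 4) w c ∧ ¬M.P2 f.ψ U' U r r₁ ζ 1} := by
  obtain ⟨B, hB, hv⟩ := M.vol_fibre_le K
  refine ⟨2 * B, max (3 * K) (24 * K / m), by linarith, fun f p c w Λ₂ r r₁ U U' hw hU => ?_⟩
  have hK := f.one_le
  have w1 : 3 * K ≤ w := (le_max_left _ _).trans hw
  have w2 : 24 * K ≤ w * m := (div_le_iff₀ hm).1 ((le_max_right _ _).trans hw)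
  set T := {ζ | p⁻¹ * f.ψ ζ ∈ M.RegC (Λ₂ + 1) (m / 2) (m / 4) w c ∧ ¬M.P2 f.ψ U' U r r₁ ζ 1} with hTd
  have hT : MeasurableSet T :=
    ((f.mψ.const_mul p⁻¹) (M.measurableSet_RegC _ _ _ _ c)).inter (M.measurableSet_P2 f.mψ U' hU r r₁ 1).compl
  have hF : Measurable fun q => (volume[|M.ballR 1]) {s | f.φ q * s ∈ T} :=
    measurable_measure_prodMk_left (ν := volume[|M.ballR 1]) (s := {z : M.G × M.G | f.φ z.1 * z.2 ∈ T})
      (((f.mφ.comp measurable_fst).mul measurable_snd) hT)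
  have hb := (M.isCompact_ballR 1).measurableSet
  calc volume {y | y ∈ M.RegC Λ₂ (3 * m / 4) (m / 8) w c ∧ ¬M.H3 f.φ f.ψ U U' r r₁ (p * y)}
      ≤ volume ((p * ·) ⁻¹' {q | 2⁻¹ ≤ (volume[|M.ballR 1]) {s | f.φ q * s ∈ T}}) := by
        refine measure_mono fun y hy => ?_
        refine (not_le.1 hy.2).le.trans ?_
        rw [cond_apply hb, cond_apply hb]
        refine mul_le_mul_right (measure_mono fun s hs => And.intro hs.1 (And.intro ?_ hs.2)) _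
        have h1 := f.left (p * y)
        have h2 := f.lψ (f.φ (p * y)) (f.φ (p * y) * s)
        rw [inv_mul_cancel_left] at h2
        have h3 : (M.len s : ℝ) ≤ 1 := hs.1
        have h4 : (p * y)⁻¹ * f.ψ (f.φ (p * y) * s) ∈ M.ballR (3 * K) := by
          have := M.mul_mem_ballR (r := K) (r' := 2 * K) h1 (h2.trans (by nlinarith))
          rwa [mul_assoc, mul_inv_cancel_left, show K + 2 * K = 3 * K by ring] at this
        have h5 : p⁻¹ * f.ψ (f.φ (p * y) * s) = y * ((p * y)⁻¹ * f.ψ (f.φ (p * y) * s)) := by group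
        rw [h5]
        refine ⟨M.mul_mem_Reg hy.1.1 h4 (by linarith) (by linarith), ?_⟩
        rw [M.chi_mul, add_sub_right_comm]
        refine (nm_add_le _ _).trans ?_
        have h6 := (M.nm_chi_le _).trans h4
        have h7 := hy.1.2
        linarith
    _ = volume {q | 2⁻¹ ≤ (volume[|M.ballR 1]) {s | f.φ q * s ∈ T}} := measure_preimage_mul _ _ _
    _ ≤ (∫⁻ q, (volume[|M.ballR 1]) {s | f.φ q * s ∈ T}) / 2⁻¹ :=
        meas_ge_le_lintegral_div hF.aemeasurable (by simp) (by simp)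
    _ ≤ ENNReal.ofReal B * volume T / 2⁻¹ := ENNReal.div_le_div_right (hv f T hT) _
    _ = _ := by
        rw [ENNReal.ofReal_mul zero_le_two, ENNReal.ofReal_ofNat, div_eq_mul_inv, inv_inv]
        ring

/-- part c.  `z = exp X₀ * c * b`; `c * b ∈ Adm` (`mul_mem_Adm'`), the word of `exp X` (`exists_mword'`, `g = 1`), `mul_mem_Adm`:
`nm (chi (c b) + chi l') ≤ nm (chi c - j • chi d) + δ w + Λ₁ ≤ (1 - 3 m / 4) w`; `chi (z * exp X) - chi c = chi b` -/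
theorem eng3_c {d : M.G} (hd : d ∈ M.C) : ∃ Λ₁ : ℝ, 1 ≤ Λ₁ ∧ ∀ Λ m : ℝ, 0 < m → ∃ w₀ : ℝ, ∀ (w R δ : ℝ) (c : M.G), w₀ ≤ w → 1 ≤ R → R ≤ w →
    δ ≤ m / 8 → c ∈ M.AdmC (Λ * w) ((1 - m) * w) → Room (M.chi c) (M.chi d) (Λ₁ * R) ((1 - m) * w) →
    ∀ z ∈ M.exp '' M.Box w * {c} * M.ballCR (δ * w), ∀ X ∈ M.mI (M.chi d), X ∈ M.Gv R →
      z * M.exp X ∈ M.RegC (Λ + m + Λ₁) (3 * m / 4) (m / 8) w c := by
  obtain ⟨Λ₁, hΛ₁, hw⟩ := M.exists_mword' hd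
  refine ⟨Λ₁, hΛ₁, fun Λ m hm => ⟨8 * Λ₁ / m, fun w R δ c hw₀ hR hRw hδ hc hroom => ?_⟩⟩
  rintro _ ⟨_, ⟨_, ⟨X₀, hX₀, rfl⟩, c, rfl, rfl⟩, b, hb, rfl⟩ X hX hXR
  have hw1 : 0 < w := by linarith
  rw [div_le_iff₀ hm] at hw₀
  have hδw : δ * w ≤ m / 8 * w := mul_le_mul_of_nonneg_right hδ hw1.le
  obtain ⟨l, hl, hlen, hprod, hpre⟩ := hw R hR 1 (M.one_mem_ballR (by linarith)) X hX hXR
  rw [inv_one, one_mul, mul_one] at hprod
  have hb' := M.bxk_nm hb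
  have h1 : _ * b ∈ M.Adm _ ((1 - 3 * m / 4) * w) :=
    M.Adm_mono le_rfl (by nlinarith) (M.mul_mem_Adm' (M.AdmC_subset_Adm _ _ hc) (M.ballCR_subset_ballR _ hb))
  have h2 := M.mul_mem_Adm h1 hl hlen fun l' hl' => by
    obtain ⟨a, j, ha, hj, e⟩ := hpre l' hl'
    have e2 : ∀ u v a x : Fin k → ℝ, u + v + (a - x) = u - x + v + a := fun u v a x => by abel
    rw [e, M.chi_mul, e2]
    have a1 := hroom j hj
    have a2 := nm_add_le (M.chi c - j • M.chi d + M.chi b) a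
    have a3 := nm_add_le (M.chi c - j • M.chi d) (M.chi b)
    refine a2.trans ((add_le_add (a3.trans (add_le_add a1 hb')) ha).trans ?_)
    nlinarith
  refine ⟨⟨M.exp X₀, ⟨X₀, by rwa [one_smul], rfl⟩, _, M.Adm_mono ?_ le_rfl h2, ?_⟩, ?_⟩
  · nlinarith [mul_le_mul_of_nonneg_left hRw (zero_le_one.trans hΛ₁), mul_pos hm hw1]
  · simp only [hprod, mul_assoc]
  · simp only [M.chi_mul, M.chi_exp, zero_add, add_zero, add_sub_cancel_left]
    linarith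

/-- ENG3.  For fixed `z' ∈ exp (mI' ∩ Gv r)` apply `pull` to its word and `exists_pmq` to `ψ` (`Dir.bwd`); Fubini over `z'` gives that the set `T` of target points
over the region where `P2 ψ` fails has small volume; `vol_fibre_le`; right translation by `x' ∈ exp (mI ∩ Gv R)` (`c b x' = exp (Ad (c b) X') c b`; use the word of
`x'` or `Ad_Gv_subset` at the heights of `Room` to see that `y * x'` stays in `Reg`); Fubini over `x'`; `vol_region_le`.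
part d: `eng3_a`, `eng3_b`, `eng3_c`, `markov_Gv` with `Ω = Z`, `measure_preimage_mul_right`, `vol_region_le (max Λ 1) 1 δ`, `cond_apply`. -/
theorem eng3 {d d' : M.G} (hd : d ∈ M.C) (hd' : d' ∈ M.C) : ∃ Λ₁ : ℝ, 1 ≤ Λ₁ ∧ ∀ K Λ m : ℝ, 0 < m → ∃ δ₀ : ℝ, 0 < δ₀ ∧ ∀ δ ε₁ : ℝ, 0 < δ →
    δ ≤ δ₀ → 0 < ε₁ → ∃ t ε w₀ : ℝ, 1 ≤ t ∧ 0 < ε ∧ ∀ (f : M.QP K) (p : M.G) (w R r : ℝ) (L : Mat k) (κ : Fin k → ℝ), w₀ ≤ w →
      1 ≤ r → r ≤ R → R ≤ w → L.det ≠ 0 → Mb L Λ → Mb L⁻¹ Λ → M.Dir L d d' → M.PF f.φ p w L κ t ε →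
      ∀ c ∈ M.AdmC (Λ * w) ((1 - m) * w), Room (M.chi c) (M.chi d) (Λ₁ * R) ((1 - m) * w) →
        Room (M.chi c) (L⁻¹ *ᵥ M.chi d') (Λ₁ * R) ((1 - m) * w) →
        (volume[|M.exp '' M.Box w * {c} * M.ballCR (δ * w)])
          {z | ¬M.P3 f.φ f.ψ (M.mI (M.chi d)) (M.mI (M.chi d')) R r (ε₁ * w) (p * z)} ≤ ENNReal.ofReal ε₁ := by
  obtain ⟨Λa, hΛa, Ha⟩ := M.eng3_a hd'
  obtain ⟨Λc, hΛc, Hc⟩ := M.eng3_c hd
  refine ⟨max Λa Λc, le_max_of_le_left hΛa, fun K Λ m hm => ⟨m / 8, by positivity, fun δ ε₁ hδ hδ' hε₁ => ?_⟩⟩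
  obtain ⟨B, wb, hB, Hb⟩ := M.eng3_b K m hm
  obtain ⟨wc, Hc⟩ := Hc Λ m hm
  obtain ⟨D, wd, hD, Hd⟩ := M.vol_region_le (max Λ 1) 1 δ hδ
  obtain ⟨t, ε, wa, ht, hε, Ha⟩ := Ha K Λ (Λ + m + Λc + 1) m ε₁ (ε₁ / (6 * B * D)) hm hε₁ (by positivity)
  refine ⟨t, ε, max (max wa wb) (max wc wd), ht, hε,
    fun f p w R r L κ hw hr hrR hRw hL h1 h2 hdir hpf c hc hr1 hr2 => ?_⟩
  simp only [max_le_iff] at hw
  obtain ⟨⟨w1, w2⟩, w3, w4⟩ := hw
  have hw0 : 0 ≤ w := by linarith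
  have hU := M.gi_mI (M.chi d)
  have hUs : M.IsSub (M.mI (M.chi d)) := Core.IsIdl.isSub _ hU.idl
  have hZ : MeasurableSet (M.exp '' M.Box w * {c} * M.ballCR (δ * w)) :=
    ((((M.isCompact_Box w).image M.continuous_exp).mul isCompact_singleton).mul (M.isCompact_ballCR _)).measurableSet
  have a1 := (Hb f p c w (Λ + m + Λc) r (ε₁ * w) _ (M.mI (M.chi d')) w2 hUs).trans (mul_le_mul_right
    (Ha f p w r L κ d c w1 hr (hrR.trans hRw) hL h1 h2 hdir hpf fun s hs => hr2 s ⟨hs.1, hs.2.trans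
      (mul_le_mul (le_max_left _ _) hrR (by linarith) (by positivity))⟩) _)
  have a2 := M.markov_Gv (ν := volume) hU.le R hZ
    (Q := fun z x => ¬M.H3 f.φ f.ψ (M.mI (M.chi d)) (M.mI (M.chi d')) r (ε₁ * w) (p * z * x))
    (((measurable_fst.const_mul p).mul measurable_snd) (M.measurableSet_H3 f.mφ f.mψ hUs _ r _).compl)
    (fun X hX hX' => by
      refine le_trans (le_trans (measure_mono fun z hz => ?_) (measure_preimage_mul_right volume (M.exp X) _).le) a1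
      exact ⟨Hc w R δ c w3 (hr.trans hrR) hRw hδ' hc (fun s hs => hr1 s ⟨hs.1, hs.2.trans
        (mul_le_mul_of_nonneg_right (le_max_right _ _) (by linarith))⟩) z hz.1 X hX hX', by rw [← mul_assoc]; exact hz.2⟩)
  have a3 : M.vol0 w ≤ ENNReal.ofReal D * volume (M.exp '' M.Box w * {c} * M.ballCR (δ * w)) := by
    refine le_trans ?_ (Hd w w4 c (M.ballCR_mono (mul_le_mul_of_nonneg_right (le_max_left _ _) hw0)
      (M.AdmC_subset_ballCR _ _ hc)))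
    rw [one_smul]
    exact measure_mono (Set.mul_subset_mul_left (M.ballCR_mono (le_mul_of_one_le_left hw0 (le_max_right _ _))))
  have a4 : (6 : ℝ≥0∞) * (ENNReal.ofReal B * (ENNReal.ofReal (ε₁ / (6 * B * D)) * ENNReal.ofReal D)) = ENNReal.ofReal ε₁ := by
    rw [← ENNReal.ofReal_mul (by positivity), ← ENNReal.ofReal_mul (by positivity), ← ENNReal.ofReal_ofNat 6,
      ← ENNReal.ofReal_mul (by positivity)]
    congr 1
    field_simp
  rw [cond_apply hZ]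
  refine (mul_le_mul_right (a2.trans (mul_le_mul_right (mul_le_mul_right (mul_le_mul_right a3 _) _) _)) _).trans ?_
  rw [← mul_assoc (ENNReal.ofReal (ε₁ / _)), ← mul_assoc (ENNReal.ofReal B), ← mul_assoc 6, a4, mul_left_comm]
  exact mul_le_of_le_one_right' (ENNReal.inv_mul_le_one _)

end Model

end Crest.Agent.R182
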