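import Crest.Agent.R182.ENG.Pv

/-! R182/ENG/Pull (owner helper94): PULL -/

set_option autoImplicit false
set_option linter.unusedVariables false
set_option linter.unusedSectionVars false
open Set Filter Topology MeasureTheory ProbabilityTheory Matrix Crest.GroupTheory
open scoped Pointwise commutatorElement ENNReal

noncomputable section
namespace Crest.Agent.R182

namespace Model
variable {h k : ℕ} (M : Model h k)

theorem pld_step {ℓ H r : ℝ} {g s : M.G} (hg : g ∈ M.Adm ℓ H) (hs : (M.len s : ℝ) ≤ r) (hH : nm (M.chi g) + r ≤ H) :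
    g * s ∈ M.Adm (ℓ + r) H := by
  obtain ⟨l, hl, hlen, rfl⟩ := M.exists_wrd s
  have hr : (l.length : ℝ) ≤ r := by rw [hlen]; exact hs
  refine M.mul_mem_Adm hg hl hr fun l' hl' => (nm_add_le _ _).trans ?_
  have h1 := M.nm_chi_le l'.prod
  have h2 : (M.len l'.prod : ℝ) ≤ l'.length := by exact_mod_cast (hl.of_prefix hl').len_le
  have h3 : (l'.length : ℝ) ≤ l.length := by exact_mod_cast hl'.length_le
  linarith

theorem pld_good {K Λ e : ℝ} (f : M.QP K) {L : Mat k} (hd : L.det ≠ 0) (hL : Mb L⁻¹ Λ) (hΛ : 0 ≤ Λ) {κ : Fin k → ℝ} {z c : M.G}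
    (h0 : ‖M.er f.φ L (f.ψ z) - κ‖ ≤ e) (h1 : ‖M.er f.φ L (f.ψ (z * c)) - κ‖ ≤ e) :
    ‖M.cc f.ψ c z - L⁻¹ *ᵥ M.chi c‖ ≤ k * Λ * (2 * e + 2 * K) := by
  have e1 : M.cc f.ψ c z - L⁻¹ *ᵥ M.chi c = L⁻¹ *ᵥ (L *ᵥ M.cc f.ψ c z - M.chi c) := by
    rw [Matrix.mulVec_sub, Matrix.mulVec_mulVec, Matrix.nonsing_inv_mul _ (isUnit_iff_ne_zero.2 hd), Matrix.one_mulVec]
  have e2 : L *ᵥ M.cc f.ψ c z - M.chi c = (M.er f.φ L (f.ψ z) - κ) - (M.er f.φ L (f.ψ (z * c)) - κ) +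
      (M.chi ((z * c)⁻¹ * f.φ (f.ψ (z * c))) - M.chi (z⁻¹ * f.φ (f.ψ z))) := by
    simp only [er, cc, chi_mul, chi_inv, Matrix.mulVec_sub]
    abel
  have a1 := (M.norm_chi_le _).trans (f.right (z * c))
  have a2 := (M.norm_chi_le _).trans (f.right z)
  rw [e1]
  refine (hL.norm_mulVec _).trans (mul_le_mul_of_nonneg_left ?_ (by positivity))
  rw [e2]
  refine (norm_add_le _ _).trans ((add_le_add (norm_sub_le _ _) (norm_sub_le _ _)).trans ?_)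
  linarith

/-- part a (deterministic).  `c i = (chk i).prod` (`exists_chk Λ δ`), `z i = z * c i`, `y i = p⁻¹ * ψ (z i)`.  Suppose no `i < N` is bad.  Write
`y 0 = exp X * g 0`.  Induction on `i < N`: `y i = exp X * g i` with `g i ∈ Adm (Λ w + i (K δ w + K)) ((1 - m / 2) w)`, hence `y i` is good.
Good `y 0`, `y i` give `‖chi (c i) - L *ᵥ cc ψ (c i) z‖ ≤ 2 ε₂ w + 2 K` (`f.right`, `norm_chi_le`), so
`‖cc ψ (c i) z - L⁻¹ *ᵥ chi (c i)‖ ≤ k Λ (2 ε₂ w + 2 K)` (`Mb.norm_mulVec`, `Matrix.nonsing_inv_mul`) and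
`nm (chi (g i)) ≤ (1 - m) w + k (…)` (`chi (y i) = chi (y 0) + cc ψ (c i) z`, `nm_le_norm`); `g (i + 1) = g i * (ψ (z i))⁻¹ * ψ (z (i + 1))`, `exists_wrd`,
`mul_mem_Adm`, `nm_chi_le`.  A prefix `chk i ++ s` adds `≤ (K + k Λ) δ w + K` (`Lip.norm_er` for `ψ`, `L⁻¹`; `er_sub`). -/
theorem pull_det (K Λ m ε₁ : ℝ) (hm : 0 < m) (hε : 0 < ε₁) : ∃ (N : ℕ) (Λ' ε₂ w₀ : ℝ), 0 < ε₂ ∧ ∀ (f : M.QP K) (p : M.G) (w t₀ : ℝ)
    (L : Mat k) (κ : Fin k → ℝ), w₀ ≤ w → L.det ≠ 0 → Mb L⁻¹ Λ → ∀ l, M.Wrd l → (l.length : ℝ) ≤ Λ * w → ∃ c : ℕ → M.G, ∀ z,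
      p⁻¹ * f.ψ z ∈ M.Reg t₀ Λ m w → (∀ l', l' <+: l → nm (M.chi (p⁻¹ * f.ψ z) + L⁻¹ *ᵥ M.chi l'.prod) ≤ (1 - m) * w) →
      (∃ l', l' <+: l ∧ ε₁ * w < ‖M.cc f.ψ l'.prod z - L⁻¹ *ᵥ M.chi l'.prod‖) →
      ∃ i < N, p⁻¹ * f.ψ (z * c i) ∈ M.Reg t₀ Λ' (m / 2) w ∧ ε₂ * w < ‖M.er f.φ L (f.ψ (z * c i)) - κ‖ := by
  obtain ⟨B, hB⟩ : ∃ B : ℝ, B = 3 * (k * |Λ|) + 2 * (k * (k * |Λ|)) + |K| + 1 := ⟨_, rfl⟩
  have hB0 : 0 < B := by rw [hB]; positivity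
  obtain ⟨δ, hδ⟩ : ∃ δ : ℝ, δ = min ε₁ (m / 2) / (2 * B) := ⟨_, rfl⟩
  have hη : 0 < min ε₁ (m / 2) := lt_min hε (by linarith)
  have hδ0 : 0 < δ := by rw [hδ]; positivity
  have hδB : 2 * B * δ = min ε₁ (m / 2) := by rw [hδ]; field_simp
  obtain ⟨N, hN, hchk⟩ := exists_chk Λ δ hδ0
  refine ⟨N, Λ + N * ((|K| + 1) * δ), δ, (|K| + 1) / δ, hδ0, fun f p w t₀ L κ hw hd hL l hl hlen => ?_⟩
  have hK := f.one_le
  rw [abs_of_nonneg (by linarith : (0 : ℝ) ≤ K)] at hw hB ⊢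
  have hx : K + 1 ≤ δ * w := by rwa [div_le_iff₀' hδ0] at hw
  have hw0 : 0 < w := (mul_pos_iff_of_pos_left hδ0).1 (by linarith)
  have hΛ : 0 ≤ Λ := nonneg_of_mul_nonneg_left ((Nat.cast_nonneg _).trans hlen) hw0
  rw [abs_of_nonneg hΛ] at hB
  have hP : 0 ≤ k * Λ := by positivity
  have hP' : 0 ≤ k * (k * Λ) := by positivity
  have b1 : 2 * B * (δ * w) ≤ ε₁ * w := by
    rw [← mul_assoc, hδB]; exact mul_le_mul_of_nonneg_right (min_le_left _ _) hw0.le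
  have b2 : 2 * B * (δ * w) ≤ m / 2 * w := by
    rw [← mul_assoc, hδB]; exact mul_le_mul_of_nonneg_right (min_le_right _ _) hw0.le
  obtain ⟨c, hc0, hcp, hcs, hcl⟩ := hchk M.G w l (by linarith) hlen
  have hwr : ∀ (a s : List M.G), a ++ s <+: l → (s.length : ℝ) ≤ δ * w → (M.len s.prod : ℝ) ≤ δ * w := fun a s has hs => by
    have : M.Wrd s := fun x hx => hl x (has.subset (List.mem_append_right _ hx))
    have h2 : (M.len s.prod : ℝ) ≤ s.length := by exact_mod_cast this.len_le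
    linarith
  refine ⟨fun i => (c i).prod, fun z hz hH hbad => ?_⟩
  by_contra hcon
  push Not at hcon
  obtain ⟨_, ⟨X, hX, rfl⟩, g₀, hg₀, hy⟩ := hz
  have hy : M.exp X * g₀ = p⁻¹ * f.ψ z := hy
  have reg : ∀ i < N, ∀ g ∈ M.Adm (Λ * w + i * (K * (δ * w) + K)) ((1 - m / 2) * w), p⁻¹ * f.ψ (z * (c i).prod) = M.exp X * g →
      ‖M.er f.φ L (f.ψ (z * (c i).prod)) - κ‖ ≤ δ * w := fun i hi g hg he => by
    refine hcon i hi ?_
    rw [he]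
    refine Set.mul_mem_mul ⟨X, hX, rfl⟩ (M.Adm_mono ?_ le_rfl hg)
    have h1 : (i : ℝ) ≤ N := by exact_mod_cast hi.le
    have h2 : (i : ℝ) * (K * (δ * w) + K) ≤ N * ((K + 1) * (δ * w)) :=
      mul_le_mul h1 (by linarith) (by positivity) (Nat.cast_nonneg _)
    linarith
  have hg₀' : g₀ ∈ M.Adm (Λ * w + (0 : ℕ) * (K * (δ * w) + K)) ((1 - m / 2) * w) := M.Adm_mono (by simp) (by nlinarith) hg₀
  have g0 : ‖M.er f.φ L (f.ψ z) - κ‖ ≤ δ * w := by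
    have := reg 0 hN g₀ hg₀' (by rw [hc0, List.prod_nil, mul_one, hy])
    rwa [hc0, List.prod_nil, mul_one] at this
  have ind : ∀ i < N, ∃ g ∈ M.Adm (Λ * w + i * (K * (δ * w) + K)) ((1 - m / 2) * w), p⁻¹ * f.ψ (z * (c i).prod) = M.exp X * g := by
    intro i
    induction i with
    | zero => exact fun _ => ⟨g₀, hg₀', by rw [hc0, List.prod_nil, mul_one, hy]⟩
    | succ i ih =>
      intro hi
      obtain ⟨g, hg, he⟩ := ih (by omega)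
      have gi := M.pld_good f hd hL hΛ g0 (reg i (by omega) g hg he)
      obtain ⟨s, hs, hsl⟩ := hcs i
      have h1 := hwr _ _ (hs ▸ hcp (i + 1)) hsl
      have h2 := f.lψ (z * (c i).prod) (z * (c (i + 1)).prod)
      rw [show (z * (c i).prod)⁻¹ * (z * (c (i + 1)).prod) = s.prod by rw [hs, List.prod_append]; group] at h2
      have h3 : K * (M.len s.prod : ℝ) ≤ K * (δ * w) := mul_le_mul_of_nonneg_left h1 (by linarith)
      have h4 : M.chi g = (M.chi (p⁻¹ * f.ψ z) + L⁻¹ *ᵥ M.chi (c i).prod) + (M.cc f.ψ (c i).prod z - L⁻¹ *ᵥ M.chi (c i).prod) := by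
        have := congrArg M.chi he
        rw [M.chi_mul (M.exp X), M.chi_exp, zero_add] at this
        rw [← this]
        simp only [cc, chi_mul]
        abel
      have h5 : nm (M.chi g) ≤ (1 - m) * w + k * (k * Λ * (2 * (δ * w) + 2 * K)) := by
        rw [h4]
        exact (nm_add_le _ _).trans (add_le_add (hH _ (hcp i)) ((nm_le_norm _).trans (mul_le_mul_of_nonneg_left gi (Nat.cast_nonneg _))))
      refine ⟨g * ((f.ψ (z * (c i).prod))⁻¹ * f.ψ (z * (c (i + 1)).prod)), ?_, by rw [← mul_assoc, ← he]; group⟩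
      have h6 := M.pld_step (r := K * (δ * w) + K) hg (h2.trans (by linarith)) (by
        have h7 : k * (k * Λ) * K ≤ k * (k * Λ) * (δ * w) := mul_le_mul_of_nonneg_left (by linarith) hP'
        have h8 : 0 ≤ k * Λ * (δ * w) := by positivity
        have h9 : 0 ≤ K * (δ * w) := by positivity
        rw [hB] at b2
        linarith)
      refine M.Adm_mono (le_of_eq ?_) le_rfl h6
      push_cast; ring
  obtain ⟨l', hl', hlt⟩ := hbad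
  obtain ⟨i, hi, s, rfl, hsl⟩ := hcl l' hl'
  obtain ⟨g, hg, he⟩ := ind i hi
  have gi := M.pld_good f hd hL hΛ g0 (reg i hi g hg he)
  have h1 := hwr _ _ hl' hsl
  have h2 := f.lψ.norm_er hL s.prod (z * (c i).prod)
  have h3 : (K + k * Λ) * (M.len s.prod : ℝ) ≤ (K + k * Λ) * (δ * w) := mul_le_mul_of_nonneg_left h1 (by linarith)
  rw [← M.er_sub] at gi hlt
  rw [List.prod_append, ← mul_assoc, ← sub_add_sub_cancel _ (M.er f.ψ L⁻¹ (z * (c i).prod))] at hlt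
  have h4 := hlt.trans_le (norm_add_le _ _)
  have h7 : k * Λ * K ≤ k * Λ * (δ * w) := mul_le_mul_of_nonneg_left (by linarith) hP
  have h8 : 0 ≤ k * (k * Λ) * (δ * w) := by positivity
  have h9 : 0 ≤ K * (δ * w) := by positivity
  have h10 : 0 ≤ k * Λ * (δ * w) := by positivity
  rw [hB] at b1
  linarith

/-- part b.  `S = {y ∈ Reg t₀ Λ' m w | ε₂ w < ‖er (p * y) - κ‖}`, `T = (p⁻¹ * ·) ⁻¹' S`; the set is `(· * c) ⁻¹' (ψ ⁻¹' T)`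
(`measure_preimage_mul_right`); `vol_le_image K 0` for `f.symm` and `A = ψ ⁻¹' T`; `T * ballR 1 ⊆ (p⁻¹ * ·) ⁻¹' S'` with
`S' = {y ∈ Reg t₀ (Λ' + 1) (m / 2) w | ε₄ w < …}`, `ε₄ = min (ε₂ / 2) (ε₃ / B)` (`mul_mem_Reg`, `Lip.norm_er`; `measure_preimage_mul`); `pv` -/
theorem pull_vol (K t₀ Λ Λ' m ε₂ ε₃ : ℝ) (hm : 0 < m) (h2 : 0 < ε₂) (h3 : 0 < ε₃) : ∃ t ε w₀ : ℝ, 1 ≤ t ∧ 0 < ε ∧
    ∀ (f : M.QP K) (p : M.G) (w : ℝ) (L : Mat k) (κ : Fin k → ℝ), w₀ ≤ w → Mb L Λ → M.PF f.φ p w L κ t ε → ∀ c : M.G,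
      volume {z | p⁻¹ * f.ψ (z * c) ∈ M.Reg t₀ Λ' m w ∧ ε₂ * w < ‖M.er f.φ L (f.ψ (z * c)) - κ‖} ≤ ENNReal.ofReal ε₃ * M.vol0 w := by
  obtain ⟨B, hB, hvol⟩ := M.vol_le_image K 0
  have hB0 : 0 < B := by linarith
  obtain ⟨t, ε, w₁, ht, hε, hpv⟩ := M.pv t₀ (Λ' + 1) (m / 2) (min (ε₂ / 2) (ε₃ / B)) (half_pos hm) (by positivity)
  refine ⟨t, ε, max w₁ (max 1 (max (2 / m) (2 * (|K + k * Λ| + K) / ε₂))), ht, hε, fun f p w L κ hw hL hP c => ?_⟩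
  simp only [max_le_iff] at hw
  obtain ⟨hw1, hw2, hw3, hw4⟩ := hw
  rw [div_le_iff₀ hm] at hw3
  rw [div_le_iff₀ h2] at hw4
  set T : Set M.G := {u | p⁻¹ * u ∈ M.Reg t₀ Λ' m w ∧ ε₂ * w < ‖M.er f.φ L u - κ‖} with hT
  have hsub : f.symm.φ '' (f.ψ ⁻¹' T) * M.ballR 1 ⊆ (fun u => p⁻¹ * u) ⁻¹'
      {y | y ∈ M.Reg t₀ (Λ' + 1) (m / 2) w ∧ min (ε₂ / 2) (ε₃ / B) * w < ‖M.er f.φ L (p * y) - κ‖} := by
    rintro _ ⟨_, ⟨z, hz, rfl⟩, s, hs, rfl⟩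
    change f.ψ z ∈ T at hz
    change p⁻¹ * (f.ψ z * s) ∈ M.Reg t₀ (Λ' + 1) (m / 2) w ∧
      min (ε₂ / 2) (ε₃ / B) * w < ‖M.er f.φ L (p * (p⁻¹ * (f.ψ z * s))) - κ‖
    refine ⟨?_, ?_⟩
    · rw [← mul_assoc]
      exact M.mul_mem_Reg hz.1 hs (by linarith) (by linarith)
    · rw [mul_inv_cancel_left]
      have a1 := f.lφ.norm_er hL s (f.ψ z)
      have a2 : (K + k * Λ) * (M.len s : ℝ) ≤ |K + k * Λ| :=
        (mul_le_mul_of_nonneg_right (le_abs_self _) (Nat.cast_nonneg _)).trans (mul_le_of_le_one_right (abs_nonneg _) hs)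
      have a3 := norm_sub_le_norm_sub_add_norm_sub (M.er f.φ L (f.ψ z)) (M.er f.φ L (f.ψ z * s)) κ
      rw [norm_sub_rev (M.er f.φ L (f.ψ z)) (M.er f.φ L (f.ψ z * s))] at a3
      have a4 : min (ε₂ / 2) (ε₃ / B) * w ≤ ε₂ / 2 * w := mul_le_mul_of_nonneg_right (min_le_left _ _) (by linarith)
      have a5 := hz.2
      linarith
  calc volume {z | p⁻¹ * f.ψ (z * c) ∈ M.Reg t₀ Λ' m w ∧ ε₂ * w < ‖M.er f.φ L (f.ψ (z * c)) - κ‖}
      = volume (f.ψ ⁻¹' T) := measure_preimage_mul_right volume c (f.ψ ⁻¹' T)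
    _ ≤ volume (f.ψ ⁻¹' T * M.ballR 0) := measure_mono (subset_mul_left _ (M.one_mem_ballR le_rfl))
    _ ≤ ENNReal.ofReal B * volume (f.symm.φ '' (f.ψ ⁻¹' T) * M.ballR 1) := hvol f.symm _
    _ ≤ ENNReal.ofReal B * (ENNReal.ofReal (min (ε₂ / 2) (ε₃ / B)) * M.vol0 w) := by
        refine mul_le_mul_right ((measure_mono hsub).trans ?_) _
        rw [measure_preimage_mul]
        exact hpv f.φ p w L κ f.mφ hw1 hP
    _ ≤ _ := by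
        rw [← mul_assoc, ← ENNReal.ofReal_mul hB0.le]
        refine mul_le_mul_left (ENNReal.ofReal_le_ofReal ?_) _
        rw [mul_comm, ← le_div_iff₀ hB0]
        exact min_le_right _ _

/-- PULL.  Check points `zᵢ = z * (l.take (i δ w)).prod`, `yᵢ = p⁻¹ * ψ zᵢ`.  If `y₀, …, yᵢ₋₁` are good for `pv` then their heights are
`chi y₀ + L⁻¹ chi (l.take _) ± B ε₂ w`, so the image path stays admissible with margin `m / 2` and `yᵢ ∈ Reg t₀ Λ' (m / 2) w`.  The set of `z` with `yᵢ` in the bad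
set `S` has volume `vol (ψ ⁻¹' (p S)) ≤ B vol (S * ball 1)` (right invariance, `vol_le_image`).
part b: `pull_det`, `pull_vol` with `ε₃ = ε₁ / (N + 1)`, `measure_biUnion_finset_le`. -/
theorem pull (K t₀ Λ m ε₁ : ℝ) (hm : 0 < m) (hε : 0 < ε₁) : ∃ t ε w₀ : ℝ, 1 ≤ t ∧ 0 < ε ∧ ∀ (f : M.QP K) (p : M.G) (w : ℝ) (L : Mat k)
    (κ : Fin k → ℝ), w₀ ≤ w → L.det ≠ 0 → Mb L Λ → Mb L⁻¹ Λ → M.PF f.φ p w L κ t ε → ∀ l, M.Wrd l → (l.length : ℝ) ≤ Λ * w →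
      volume {z | p⁻¹ * f.ψ z ∈ M.Reg t₀ Λ m w ∧ (∀ l', l' <+: l → nm (M.chi (p⁻¹ * f.ψ z) + L⁻¹ *ᵥ M.chi l'.prod) ≤ (1 - m) * w) ∧
        ∃ l', l' <+: l ∧ ε₁ * w < ‖M.cc f.ψ l'.prod z - L⁻¹ *ᵥ M.chi l'.prod‖} ≤ ENNReal.ofReal ε₁ * M.vol0 w := by
  obtain ⟨N, Λ', ε₂, w₁, h2, hdet⟩ := M.pull_det K Λ m ε₁ hm hε
  obtain ⟨t, ε, w₂, ht, hε', hvol⟩ := M.pull_vol K t₀ Λ Λ' (m / 2) ε₂ (ε₁ / (N + 1)) (half_pos hm) h2 (by positivity)
  refine ⟨t, ε, max w₁ w₂, ht, hε', fun f p w L κ hw hd hL hL' hP l hl hlen => ?_⟩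
  obtain ⟨c, hc⟩ := hdet f p w t₀ L κ ((le_max_left _ _).trans hw) hd hL' l hl hlen
  calc _ ≤ volume (⋃ i ∈ Finset.range N,
        {z | p⁻¹ * f.ψ (z * c i) ∈ M.Reg t₀ Λ' (m / 2) w ∧ ε₂ * w < ‖M.er f.φ L (f.ψ (z * c i)) - κ‖}) := by
        refine measure_mono fun z hz => ?_
        obtain ⟨i, hi, h3⟩ := hc z hz.1 hz.2.1 hz.2.2
        exact mem_biUnion (Finset.mem_coe.2 (Finset.mem_range.2 hi)) h3
    _ ≤ ∑ _i ∈ Finset.range N, ENNReal.ofReal (ε₁ / (N + 1)) * M.vol0 w :=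
        (measure_biUnion_finset_le _ _).trans
          (Finset.sum_le_sum fun i _ => hvol f p w L κ ((le_max_right _ _).trans hw) hL hP (c i))
    _ ≤ _ := by
        rw [Finset.sum_const, Finset.card_range, nsmul_eq_mul, ← mul_assoc, ← ENNReal.ofReal_natCast,
          ← ENNReal.ofReal_mul (Nat.cast_nonneg N)]
        refine mul_le_mul_left (ENNReal.ofReal_le_ofReal ?_) _
        rw [← mul_div_assoc, div_le_iff₀ (by positivity)]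
        linarith

end Model

end Crest.Agent.R182
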