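import Crest.Agent.R182.ENG.Base

/-! R182/ENG/Pv (owner helper94): PV and the passage from volumes to one fibre -/

set_option autoImplicit false
set_option linter.unusedVariables false
set_option linter.unusedSectionVars false
open Set Filter Topology MeasureTheory ProbabilityTheory Matrix Crest.GroupTheory
open scoped Pointwise commutatorElement ENNReal

noncomputable section
namespace Crest.Agent.R182

namespace Model
variable {h k : ℕ} (M : Model h k)

/-- PV: `vol_le_of_fibre` with `la = lw E (Box w)`, `lw_dom`, `vol_Reg_le`.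
`S = exp '' (E ∩ Box w)` (`lw_compl`), `Y = Reg t₀ Λ m w`, `Y' = Reg D Λ m w` with `D` from `exp_Qi_mul (max 1 |t₀|)` (`inv_exp_Qi`).  For
`z = exp Y * g ∈ Y'`: `lw_dom` (with `t := D`, `s := 1`, `𝒱 = RV w`, `bxb_compact_RV`), then `PF` with `s = t'`; `t = max t' Λ`,
`ε = min m (min ε₁ (ε₁ / (D' D₃)))` -/
theorem pv (t₀ Λ m ε₁ : ℝ) (hm : 0 < m) (hε : 0 < ε₁) : ∃ t ε w₀ : ℝ, 1 ≤ t ∧ 0 < ε ∧ ∀ (φ : M.G → M.G) (p : M.G) (w : ℝ) (L : Mat k)
    (κ : Fin k → ℝ), Measurable φ → w₀ ≤ w → M.PF φ p w L κ t ε →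
      volume {y | y ∈ M.Reg t₀ Λ m w ∧ ε₁ * w < ‖M.er φ L (p * y) - κ‖} ≤ ENNReal.ofReal ε₁ * M.vol0 w := by
  obtain ⟨D, hD, -, hmul⟩ := M.exp_Qi_mul (max 1 |t₀|)
  obtain ⟨t', D', ht', hD', hdom⟩ := M.lw_dom hD
  obtain ⟨D₃, w₀, hD₃, hvol⟩ := M.vol_Reg_le D Λ m hm
  obtain ⟨ε, hε0, hεm, hε1, hε2⟩ : ∃ ε : ℝ, 0 < ε ∧ ε ≤ m ∧ ε ≤ ε₁ ∧ ε ≤ ε₁ / (D' * D₃) :=
    ⟨min m (min ε₁ (ε₁ / (D' * D₃))), by positivity, min_le_left _ _, (min_le_right _ _).trans (min_le_left _ _),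
      (min_le_right _ _).trans (min_le_right _ _)⟩
  refine ⟨max t' Λ, ε, max w₀ 0, (hD.trans ht').trans (le_max_left _ _), hε0, fun φ p w L κ hφ hw hP => ?_⟩
  have hw0 : 0 ≤ w := (le_max_right _ _).trans hw
  have hA : MeasurableSet {y | ε₁ * w < ‖M.er φ L (p * y) - κ‖} :=
    measurableSet_lt measurable_const (((M.measurable_er hφ L).comp (measurable_const_mul p)).sub_const κ).norm
  have := M.isProbabilityMeasure_lw_Box one_pos w
  have h1 := M.vol_le_of_fibre (M.lw_compl M.E ((M.isCompact_Box w).smul (1 : ℝ))) hA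
    (M.isCompact_Reg t₀ Λ m w).measurableSet (M.isCompact_Reg D Λ m w).measurableSet
    (a := ENNReal.ofReal D' * ENNReal.ofReal ε) (by
      rintro _ ⟨s, hs, y, hy, rfl⟩
      obtain ⟨y₁, hy₁, g, hg, rfl⟩ := M.Reg_mono hw0 (le_max_right 1 |t₀|) le_rfl le_rfl hy
      have hs' : s ∈ M.exp '' (max 1 |t₀| • M.Qi (M.RV w) 1) := by
        rw [← M.inv_exp_Qi (M.star_RV w)]
        exact Set.inv_subset_inv.2 (image_mono (inter_subset_right.trans
          (M.smul_Qi_mono (M.star_RV w) zero_le_one (le_max_left _ _)))) hs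
      exact ⟨s * y₁, hmul _ (M.star_RV w) ⟨s, hs', y₁, hy₁, rfl⟩, g, hg, mul_assoc _ _ _⟩) (by
      rintro _ ⟨_, ⟨Y, hY, rfl⟩, g, hg, rfl⟩
      have hYE : Y ∈ M.E := by
        obtain ⟨Y', hY', rfl⟩ := hY
        exact M.E.smul_mem _ (M.Box_subset_E w hY')
      have h2 := (hdom M.E (M.RV w) 1 M.isIdl_E.isSub (M.star_RV w) (M.bxb_compact_RV w) le_rfl hD Y hYE hY
        {x | ε₁ * w < ‖M.er φ L (p * x * g) - κ‖}).1
      have h3 := hP t' ⟨hD.trans ht', le_max_left _ _⟩ g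
        (M.Adm_mono (by gcongr; exact le_max_right _ _) (by gcongr) hg)
      refine le_trans (le_of_eq ?_) (h2.trans (mul_le_mul_right (le_trans (measure_mono fun x hx => ?_) h3) _))
      · simp only [mem_ofPred_eq, mul_assoc]
        rfl
      · exact lt_of_le_of_lt (show ε * w ≤ ε₁ * w by gcongr) hx)
  refine le_trans h1 ((mul_le_mul_right (hvol w ((le_max_left _ _).trans hw)) _).trans ?_)
  rw [← mul_assoc, ← ENNReal.ofReal_mul (by positivity), ← ENNReal.ofReal_mul (by positivity)]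
  gcongr
  rw [le_div_iff₀ (by positivity)] at hε2
  linarith

/-- From the volume form to one fibre: Fubini gives `z = x₀ * c * b` with `ν {p | p * z ∈ A} < a` (`vol_Z_pos`); remove `x₀` with `Inv_apply`
(`s = x₀⁻¹`, `inv_exp_Qi`).  `lintegral_lintegral_swap` for the indicator of `{(p, z) | p * z ∈ A}` (or `Measure.prod_apply`, `prod_apply_symm`),
`exists_notMem_null_le_lintegral`, `cond_isProbabilityMeasure_of_finite` -/
theorem exists_fibre {w ρ η : ℝ} {c : M.G} (hc : c ∈ M.C) (hρ : 1 ≤ ρ) {ν : Measure M.G} [IsProbabilityMeasure ν] {A : Set M.G}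
    (hA : MeasurableSet A) (hν : Inv ν (M.exp '' M.Box w) η) {a : ℝ≥0∞}
    (ha : ∫⁻ p, (volume[|M.exp '' M.Box w * {c} * M.ballCR ρ]) {z | p * z ∈ A} ∂ν < a) :
    ∃ b ∈ M.ballCR ρ, ν {p | p * c * b ∈ A} ≤ a + ENNReal.ofReal η := by
  have hZc : IsCompact (M.exp '' M.Box w * {c} * M.ballCR ρ) :=
    (((M.isCompact_Box w).image M.continuous_exp).mul isCompact_singleton).mul (M.isCompact_ballCR ρ)
  haveI := cond_isProbabilityMeasure_of_finite (μ := volume) (M.vol_Z_pos w hc hρ).ne' hZc.measure_lt_top.ne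
  have hS : MeasurableSet {q : M.G × M.G | q.1 * q.2 ∈ A} := measurable_mul hA
  have e1 := (Measure.prod_apply (μ := ν) (ν := volume[|M.exp '' M.Box w * {c} * M.ballCR ρ]) hS).symm.trans
    (Measure.prod_apply_symm hS)
  obtain ⟨z, hz, hle⟩ := exists_notMem_null_le_lintegral (μ := volume[|M.exp '' M.Box w * {c} * M.ballCR ρ])
    (measurable_measure_prodMk_right (μ := ν) hS).aemeasurable (N := (M.exp '' M.Box w * {c} * M.ballCR ρ)ᶜ)
    (by rw [cond_apply hZc.measurableSet, inter_compl_self, measure_empty, mul_zero])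
  obtain ⟨_, ⟨x, hx, c, rfl, rfl⟩, b, hb, rfl⟩ := not_notMem.1 hz
  refine ⟨b, hb, ?_⟩
  have hx' : x⁻¹ ∈ M.exp '' M.Box w := by
    have := M.inv_exp_Qi (M.star_RV w) 1
    rw [one_smul] at this
    exact this ▸ Set.inv_mem_inv.2 hx
  have h1 := M.Inv_apply hν hx' {p | p * (x * c * b) ∈ A}
  refine (le_of_eq ?_).trans (h1.trans (add_le_add ((hle.trans_eq e1.symm).trans ha.le) le_rfl))
  simp [mul_assoc]

end Model

end Crest.Agent.R182
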